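import Vale.Agent.P277.H762.S.RegW
import Vale.Agent.P277.H371.L.Coinc

/-!
# P277, (LCY2): the flipped surfaces along which the space is singular: the numerical coincidence
-/

set_option maxSynthPendingDepth 3
set_option linter.unusedSectionVars false

open scoped Manifold ContDiff ComplexOrder Topology
open Vale.Agent.P272.K Vale.Agent.P285.H281.FD Vale.Agent.P267.H175 Set Metric Filter

noncomputable section

namespace Vale.Agent.P277.H615.LL

open Vale.Agent.P277 Vale.Agent.P277.T2 Vale.Agent.P277.T3 Vale.Agent.P277.H335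
open Vale.Agent.P277.H615 Vale.Agent.P277.H335.RR Vale.Agent.P277.H335.KK
open Vale.Agent.P277.H335.CC
open Vale.Agent.P277.H29.E Vale.Agent.P277.H29.W Vale.Agent.P277.H762.S
open Vale.Agent.P277.H884.S (Stp rt rt_pow norm_rt)
open Vale.Agent.P277.H371.L (eq_of_lin ord_lt chainK_all)

section
variable {Y : Type} [TopologicalSpace Y] [ChartedSpace (Cm 4) Y] [IsManifold 𝓘(ℂ, Cm 4) ω Y]

/-- the orders of the local equations of the `G l'` along an open subset of `Y` centred in `G l` -/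
theorem mu_eq {r : ℕ} {G : Fin r → Set Y} (hG : ∀ l, IsHyp (G l))
    (hGc : ∀ l, IsPreconnected (G l)) (hGcl : ∀ l, IsClosed (G l)) {l : Fin r}
    (hne : ∀ l', l' ≠ l → ¬ G l ⊆ G l') {γ : Cm 4 → Y} {w₁ : Cm 4} {r₁ : ℝ}
    (hp : IsPar (G l) γ w₁ r₁) (hγ : ContinuousAt γ w₁) {ch : Chart 4 Y} (hch : At ch (γ w₁))
    (hγa : AnalyticAt ℂ (fun w => ch (γ w)) w₁) {ΦJ : Cm 4 → ℂ} (hΦ1 : AnalyticAt ℂ ΦJ w₁)
    (hΦ2 : ΦJ w₁ ≠ 0)
    (hΦ3 : ∀ᶠ w in 𝓝 w₁, (fderiv ℂ (fun w => ch (γ w)) w).det = w 0 ^ 0 * ΦJ w)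
    {ζ : Fin r → Y → ℂ} {μ : Fin r → ℕ} {A : Fin r → Cm 4 → ℂ}
    (hζ : ∀ l, IsLEq (G l) (γ w₁) (ζ l)) (hA : ∀ l, AnalyticAt ℂ (A l) w₁)
    (hA0 : ∀ l, A l w₁ ≠ 0) (hζA : ∀ l, ∀ᶠ w in 𝓝 w₁, ζ l (γ w) = w 0 ^ μ l * A l w)
    (l' : Fin r) : μ l' = if l' = l then 1 else 0 := by
  have h0 := hp.zero
  have hin : γ w₁ ∈ G l := (hp.mem w₁ (mem_ball_self hp.pos)).2 h0
  have hinG : ∀ l, γ w₁ ∈ G l ↔ 1 ≤ μ l := by
    intro l
    have h1 := (hζ l).1.self_of_nhds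
    rw [(hζA l).self_of_nhds, h0] at h1
    rw [← h1]
    constructor
    · intro h2
      by_contra h3
      have h4 : μ l = 0 := by omega
      rw [h4, pow_zero, one_mul] at h2
      exact hA0 l h2
    · intro h2
      rw [zero_pow (by omega), zero_mul]
  split_ifs with hl
  · subst hl
    have h1 : 1 ≤ μ l' := (hinG l').1 hin
    have h2 : ζ l' (γ w₁) = 0 := (hζ l').1.self_of_nhds.2 hin
    obtain ⟨h3, h4⟩ := (hζ l').2 ch hch
    have h5 := (exists_fac h0 hγ hch hγa h3 (h4 h2) h1 (hA l') (hA0 l') hΦ1 hΦ2 (hζA l') hΦ3).1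
    omega
  · by_contra hμ
    have h1 : 1 ≤ μ l' := by omega
    refine not_locally_sub (hG l) (hGc l) (hG l') (hGcl l') (hne l' hl) hin ?_
    have h2 : ∀ᶠ w in 𝓝 w₁, w ∈ ball w₁ r₁ ∧ (ζ l' (γ w) = 0 ↔ γ w ∈ G l') ∧
        ζ l' (γ w) = w 0 ^ μ l' * A l' w :=
      (isOpen_ball.eventually_mem (mem_ball_self hp.pos)).and
        ((hγ.eventually (hζ l').1).and (hζA l'))
    obtain ⟨W', hW's, hW', hw₁W'⟩ := _root_.mem_nhds_iff.1 h2
    have h3 : γ '' W' ∈ 𝓝 (γ w₁) :=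
      (hp.openMap W' (fun w hw => (hW's hw).1) hW').mem_nhds ⟨w₁, hw₁W', rfl⟩
    filter_upwards [h3]
    rintro y ⟨w, hw, rfl⟩ hy
    obtain ⟨k1, k2, k3⟩ := hW's hw
    have k4 : w 0 = 0 := (hp.mem w k1).1 hy
    refine k2.1 ?_
    rw [k3, k4, zero_pow (by omega), zero_mul]

end

section
variable {Y : Type} [TopologicalSpace Y] [T2Space Y] [CompactSpace Y]
    [ChartedSpace (Cm 4) Y] [IsManifold 𝓘(ℂ, Cm 4) ω Y]
    {χ : Chart 4 Y → Cm 4 → Matrix (Fin 4) (Fin 4) ℂ} {k s : ℕ}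
    {M : Fin (k + s) → Bd Y} {m : Fin (k + s) → ℕ} {ρ : Fin (k + s) → ℝ} {H : Fin s → Type}
    [∀ i, TopologicalSpace (H i)] [∀ i, T2Space (H i)] [∀ i, CompactSpace (H i)]
    [∀ i, ConnectedSpace (H i)] [∀ i, ChartedSpace (Cm 3) (H i)]
    [∀ i, IsManifold 𝓘(ℂ, Cm 3) ω (H i)] {ι : ∀ i, H i → Y}
    {sg : ∀ i : Fin s, (M (Fin.natAdd k i)).ι → Y → ℂ} {W : CSp} {X Z : ℕ → CSp} {r : ℕ}
    {v₀ : Y → W.pt} {p : W.pt → (X 0).pt} {P : Bd W.pt} {G : Fin r → Set Y}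
    {f : ∀ j, (X j).pt → (Z j).pt} {f' : ∀ j, (X (j + 1)).pt → (Z j).pt}
    {A : ∀ j, Set (Z j).pt} {L : ∀ j, Fin (k + s) → Bd (X j).pt} {c : ℕ → Fin (k + s) → ℕ}
    {σ : ∀ j, ∀ i : Fin s, (L j (Fin.natAdd k i)).ι → (X j).pt → ℂ}
    {n : Fin (k + s) → Fin r → ℤ} {t : ∀ e, (L 0 e).ι →
      ((((Bd.can 4 Y).pow (m e)).mul (M e)).pow (c 0 e)).ι → Y → ℂ}

/-- If `X (j + 1)` is singular along a flipped surface, and the flips are flips of `D + u D'` for all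
`u`, then there is a numerical coincidence. -/
theorem sing_L (h : IsPG χ M m ρ ι sg v₀ p P G f f' A L c σ n t) {τ : Fin (k + s) → ℝ}
    (hτs : ∑ e, τ e * m e = 1)
    (hfl : ∀ u : ℝ, ∀ j, IsFlipR (X j) (Z j) (X (j + 1)) (f j) (f' j) (A j) (L j) (L (j + 1))
      (c j) (c (j + 1)) fun e => ρ e + u * τ e) {a : Fin r → ℝ}
    (ha : ∀ l, a l = ∑ e, ρ e * n e l / c 0 e) (hb : ∀ i : Fin s, ρ (Fin.natAdd k i) < 1)
    (hklt : ∀ l, -1 < a l) (hd1 : ∀ l l', l ≠ l' → a l < 0 → a l' < 0 → Disjoint (G l) (G l'))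
    (hd2 : ∀ l i, a l < 0 → Disjoint (G l) (range (ι i)))
    (hd3 : ∀ l l', l' ≠ l → a l < 0 → ¬ G l ⊆ G l') (j : ℕ)
    (hbad : ¬ DimLe (X (j + 1)) 1 {x | f' j x ∈ Amin (f j) ∧ ¬ IsReg 4 (X (j + 1)) x}) :
    ∃ (g : Fin r → ℕ) (κ : Fin (k + s) → ℕ), (∃ l, g l ≠ 0) ∧
      (∀ l, g l ≠ 0 → a l < 0 ∧ ZD (fun y => p (v₀ y)) (hit f f') (G l)) ∧
      ∑ l, g l * (1 + ∑ e, τ e * n e l / c 0 e) + ∑ e, τ e * κ e = 2 ∧
      ∑ l, g l * (1 + a l) + ∑ e, ρ e * κ e < 2 := by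
  classical
  have hsum : ∑ e : Fin k, ρ (Fin.castAdd s e) * m (Fin.castAdd s e) = 1 := by
    have h1 := h.sum
    rw [Fin.sum_univ_add] at h1
    simpa only [h.m0, Nat.cast_zero, mul_zero, Finset.sum_const_zero, add_zero] using h1
  have hk : 1 ≤ k := by
    rcases Nat.eq_zero_or_pos k with rfl | h1
    · simp at hsum
    · exact h1
  have hks : 1 ≤ k + s := by omega
  have hn' : ∀ l, 0 ≤ ∑ e, ρ e * n e l / c 0 e ∨ G l ⊆ (univ : Set Y) := fun l =>
    Or.inr (subset_univ _)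
  have hrc : ∀ i, IsClosed (range (ι i)) := fun i =>
    (isCompact_range (h.bd i).sub.cont).isClosed
  obtain ⟨O, v, P', Q', T, hT⟩ := H884.G.exists_twSeqG H884.stL0 (by omega) h.lb h.res h.c1 h.cmp
    h.corr hn' h.flip
  obtain ⟨pp, qq, s', aF, hf, dF, bF, -, -, -, -, -, -, -, -, -⟩ := hT.step j
  have hTw := hT.tw j
  have hch := exists_chainK H884.stL0 (by omega) (h.flip 0).flip.normal h.lb h.res h.cmp hT j
  have hsub := hT.sub_compl j
  have hv := (hTw.tw ⟨0, by omega⟩).emb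
  have hO := (hTw.tw ⟨0, by omega⟩).dim
  have hdn : ∀ i, range (ι i) ⊆ closure (range (ι i) ∩ O (j + 1)) := by
    intro i
    have hne : Nonempty Y := ⟨ι i (Classical.arbitrary (H i))⟩
    exact (hyp_dense h.res.emb h.res.hyp h.res.closed (isHyp_of_bd (h.lb _) (h.bd i))
      (isPreconnected_range (h.bd i).sub.cont)
      (fun l hl => h.ne i (hl.trans (subset_iUnion G l)))
      (hTw.tw ⟨0, by omega⟩).emb.isOpen (hTw.tw ⟨0, by omega⟩).thin).2.1
  have hS : ∀ i : Fin s, SecRel (L (j + 1) (Fin.natAdd k i))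
      (((Bd.can 4 Y).pow (m (Fin.natAdd k i))).mul (M (Fin.natAdd k i))) (O (j + 1)) (v (j + 1))
      (P' (j + 1) (Fin.natAdd k i)) (Q' (j + 1) (Fin.natAdd k i)) (T (j + 1) (Fin.natAdd k i))
      (fun b y => sg i b.2 y) := by
    intro i
    have h1 := (h.flip (j + 1)).sec i
    refine ⟨fun a x => σ (j + 1) i a x ^ P' (j + 1) (Fin.natAdd k i),
      ⟨fun a x hx ha => hol_pow (h1.holo a x hx ha) _, fun a b x hx ha hb => ?_⟩, ?_⟩
    · show σ (j + 1) i a x ^ P' (j + 1) (Fin.natAdd k i) = (L (j + 1) (Fin.natAdd k i)).g a b x ^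
        P' (j + 1) (Fin.natAdd k i) * σ (j + 1) i b x ^ P' (j + 1) (Fin.natAdd k i)
      rw [h1.change a b x hx ha hb, mul_pow]
    · rintro y hy a ⟨ch, b⟩ ha ⟨hb1, hb2⟩
      rw [mul_comm]
      exact hT.sec (j + 1) i y a ch b hy ha hb1 hb2
  obtain ⟨V₁, Gc, rr, d, nn, lm, θ, ζ, aa, bb, κ', Nn, sS, σs, φ, w₁, i₀, l, W₁, γ, ch, μ, i, x,
    r₁, b₁, lam, nj, hd1', -, -, hVL, hst, hgw, hnj, hlam, -⟩ := stage_V
    (Nc := (∅ : Set (X (j + 1)).pt)) (N := (∅ : Set Y)) (a := a) (Ks := {l | a l < 0})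
    (S := f' j ⁻¹' Amin (f j))
    h.kahler h.nef h.pos hsum
    hf.normal' hv hO h.lb hTw.tw hTw.lb
    (fun W w₀ γ' i hW hw₀ h0 hγ hcl hi hSN => by
      obtain ⟨w₁, hw₁, hw₁0, W₁, γ₀, ch, cc, q, g1, g2, g3, g4, g5, g6, g7, b₀, g8, -, g9⟩ :=
        hch W w₀ γ' i hW hw₀ h0 hγ hcl hi
      have hal : (fun l => ∑ e, ρ e * n e l / c 0 e) = a := funext fun l => (ha l).symm
      rw [hal] at g8
      exact ⟨w₁, hw₁, hw₁0, W₁, γ₀, ch, cc, q, g1, g2, g3, g4, g5, g6, g7,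
        ⟨b₀, g8, g9 (fun w hw hw0 => (hSN w hw hw0).1)⟩, fun w _ _ => notMem_empty _⟩)
    (fun l hl => Or.inl (not_lt.1 hl)) (fun l _ => (hklt l).le)
    (fun l hl l' hl' hll y hy => disjoint_left.1 (hd1 l l' hll hl hl') hy.1 hy.2)
    (fun l hl i y hy => disjoint_left.1 (hd2 l i hl) hy.1 hy.2)
    h.rho (fun i => Or.inl (hb i).le) h.bd h.disj hdn hS hsub
    (IsAn.preimage (fun x => hf.small'.holMap x) hf.small'.an) isClosed_empty hrc
    (fun h1 => hbad (h1.mono fun x hx => ⟨hx.1, hx.2, notMem_empty _⟩))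
  have h0 := hst.w0
  have hQ0 : ∀ e, (0 : ℝ) < Q' (j + 1) e := fun e => by exact_mod_cast (hTw.tw e).hQ
  have hs0 : ∀ k', (0 : ℝ) < sS k' := fun k' => by exact_mod_cast (hst.s1 k').1
  have hgm := fun k' => (hgw k').1
  have hal : ∀ k', a (l k') < 0 := fun k' => (hgw k').2.1
  have hpar := fun k' => (hgw k').2.2.1
  have hcen : ∀ k', γ k' w₁ ∈ G (l k') := fun k' =>
    ((hpar k').mem w₁ (mem_ball_self (hpar k').pos)).2 h0
  -- the equality for the weights `τ`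
  have heq : ∀ k', ∑ e, τ e / Q' (j + 1) e * (x k' e : ℝ) = ∑ e, τ e * n e (l k') / c 0 e := by
    intro k'
    obtain ⟨hg, -, -, -, -, ⟨ζ', μ', A', hζ, hA, hA0, hζA, -⟩, -⟩ := hgw k'
    obtain ⟨ΦJ, hΦ1, hΦ2, hΦ3⟩ := hg.jac
    obtain ⟨g1, g2, g3⟩ := hg.lift w₁ hg.mem
    have hμ := mu_eq h.res.hyp h.res.conn h.res.closed (fun l' hl' => hd3 (l k') l' hl' (hal k'))
      (hpar k') g1 g2 g3 hΦ1 hΦ2 hΦ3 hζ hA hA0 hζA
    have hall : ∀ b : Fin r → ℝ, ∑ l', b l' * (μ' l' : ℝ) = b (l k') := by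
      intro b
      rw [Finset.sum_eq_single (l k') (fun l' _ hne => by rw [hμ l', if_neg hne]; simp)
        (fun h1 => absurd (Finset.mem_univ _) h1), hμ, if_pos rfl]
      simp
    refine (eq_of_lin (A := ∑ e, ρ e * n e (l k') / c 0 e)
      (C := ∑ e, ρ e / Q' (j + 1) e * (x k' e : ℝ)) fun u => ?_).symm
    have h1 := ord_lt hks h.lb hTw.tw1 (chainK_all H884.stL0 hks (h.flip 0).flip.normal h.lb h.res
      h.cmp hT h.c1 (fun j => H371.C.IsFlipR.amin (hfl u j) (h.c1 j)) j) hsub hg hζ hA hA0 hζA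
    rw [hall] at h1
    have h2 : ∑ e, (ρ e + u * τ e) * (n e (l k') : ℝ) / c 0 e =
        ∑ e, ρ e * n e (l k') / c 0 e + u * ∑ e, τ e * n e (l k') / c 0 e := by
      rw [Finset.mul_sum, ← Finset.sum_add_distrib]
      exact Finset.sum_congr rfl fun e _ => by ring
    have h4 : ∑ e, (ρ e + u * τ e) / Q' (j + 1) e * (x k' e : ℝ) =
        ∑ e, ρ e / Q' (j + 1) e * (x k' e : ℝ) + u * ∑ e, τ e / Q' (j + 1) e * (x k' e : ℝ) := by
      rw [Finset.mul_sum, ← Finset.sum_add_distrib]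
      exact Finset.sum_congr rfl fun e _ => by ring
    rw [← h2, ← h4]
    exact h1
  have hlt : ∀ k', a (l k') < ∑ e, ρ e / Q' (j + 1) e * (x k' e : ℝ) := fun k' =>
    (hgw k').2.2.2.2.2.2.2.1.trans_lt (hgw k').2.2.2.2.2.2.1
  -- the cycles
  have hcyc : ∀ k', l (σs k') = l k' := by
    intro k'
    set R : Cm 4 → Cm 4 := fun w => ![rt (sS k') * w 0, w 1, w 2, w 3] with hR
    have hRc : Continuous R := by
      refine continuous_pi fun j => ?_
      fin_cases j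
      · exact continuous_const.mul (continuous_apply 0)
      · exact continuous_apply 1
      · exact continuous_apply 2
      · exact continuous_apply 3
    have hRw : R w₁ = w₁ := by
      funext j
      fin_cases j
      · show rt (sS k') * w₁ 0 = w₁ 0
        rw [h0, mul_zero]
      · rfl
      · rfl
      · rfl
    have h1 := (germ_rot hv hsub h0 (hgm k') (hgm (σs k')) hRc hRw (hst.rot k')).self_of_nhds
    rw [hRw] at h1
    by_contra hne
    refine disjoint_left.1 (hd1 _ _ hne (hal (σs k')) (hal k')) (hcen (σs k')) ?_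
    rw [h1]
    exact hcen k'
  have hcyc' : ∀ l₀ : Fin r, ∃ g : ℕ, (g : ℝ) = ∑ k', if l k' = l₀ then 1 / (sS k' : ℝ) else 0 := by
    intro l₀
    obtain ⟨g, hg⟩ := sum_inv_period σs (Finset.univ.filter fun k' => l k' = l₀) (by
      intro k' hk'
      rw [Finset.mem_filter] at hk' ⊢
      exact ⟨Finset.mem_univ _, by rw [hcyc]; exact hk'.2⟩)
    refine ⟨g, ?_⟩
    rw [← hg, Finset.sum_filter]
    exact Finset.sum_congr rfl fun k' _ => by rw [hst.per k']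
  choose g hg using hcyc'
  have hgs : ∀ b : Fin r → ℝ, ∑ l₀, (g l₀ : ℝ) * b l₀ = ∑ k', b (l k') / sS k' := by
    intro b
    simp only [hg, Finset.sum_mul]
    rw [Finset.sum_comm]
    refine Finset.sum_congr rfl fun k' _ => ?_
    simp only [ite_mul, zero_mul]
    rw [Finset.sum_ite_eq, if_pos (Finset.mem_univ _)]
    ring
  -- the inequalities for the `lam e`
  have hi₀' : ∀ k' e, φ k' w₁ ∈ (L (j + 1) e).U (i₀ e) := fun k' e =>
    hVL e (hst.pui k').self_of_nhds.2.1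
  have hkey : ∀ e : Fin k, (lam (Fin.castAdd s e) : ℝ) + m (Fin.castAdd s e) *
      ∑ k', 1 / (sS k' : ℝ) ≤ 2 * m (Fin.castAdd s e) := by
    intro e
    have h1 := H884.S.stp_key hst h.kahler (fun e => h.lb (Fin.castAdd s e)) h.nef h.pos hv hO
      (fun e => (hTw.tw _).lb) (fun e => (hTw.tw _).hQ) (fun e => (hTw.tw _).iso) (fun e => hVL _)
      (fun k' => vl0_of_germ h.lb hTw.tw (hgm k') (hi₀' k')) e
    have h2 : ∀ k', ((x k' (Fin.castAdd s e) : ℝ) / Q' (j + 1) (Fin.castAdd s e) +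
        m (Fin.castAdd s e) * (((0 : ℕ) : ℝ) + 1 - 2 * sS k')) / sS k' =
        (x k' (Fin.castAdd s e) : ℝ) / (Q' (j + 1) (Fin.castAdd s e) * sS k') +
          m (Fin.castAdd s e) * (1 / (sS k' : ℝ)) - 2 * m (Fin.castAdd s e) := by
      intro k'
      have := (hs0 k').ne'
      have := (hQ0 (Fin.castAdd s e)).ne'
      push_cast
      field_simp
      ring
    rw [Finset.sum_congr rfl fun k' _ => h2 k', Finset.sum_sub_distrib, Finset.sum_add_distrib,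
      ← hlam, ← Finset.mul_sum, Finset.sum_const, Finset.card_univ, Fintype.card_fin,
      nsmul_eq_mul] at h1
    linarith
  set z : Fin (k + s) → ℤ := fun e => 2 * m e - m e * nj - lam e with hz
  have hz0 : ∀ e, 0 ≤ z e := by
    intro e
    have h1 : (0 : ℝ) ≤ ((z e : ℤ) : ℝ) := by
      simp only [hz]
      push_cast
      induction e using Fin.addCases with
      | left e =>
        have h2 := hkey e
        rw [← hnj] at h2
        linarith
      | right b =>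
        rw [h.m0 b, hlam]
        have h2 : ∑ k', (x k' (Fin.natAdd k b) : ℝ) / (Q' (j + 1) (Fin.natAdd k b) * sS k') ≤ 0 := by
          refine Finset.sum_nonpos fun k' _ => ?_
          have h3 : (x k' (Fin.natAdd k b) : ℝ) ≤ 0 := by exact_mod_cast (hgw k').2.2.2.1 b
          exact div_nonpos_of_nonpos_of_nonneg h3 (mul_pos (hQ0 _) (hs0 k')).le
        push_cast
        linarith
    exact_mod_cast h1
  have hzt : ∀ w : Fin (k + s) → ℝ, ∑ e, w e * m e = 1 →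
      ∑ e, w e * (((z e).toNat : ℕ) : ℝ) =
        2 - nj - ∑ k', (∑ e, w e / Q' (j + 1) e * (x k' e : ℝ)) / sS k' := by
    intro w hw
    have h1 : ∀ e, (((z e).toNat : ℕ) : ℝ) = 2 * m e - m e * nj - lam e := by
      intro e
      have h2 : (((z e).toNat : ℕ) : ℤ) = z e := Int.toNat_of_nonneg (hz0 e)
      have h3 : (((z e).toNat : ℕ) : ℝ) = (z e : ℝ) := by
        exact_mod_cast congrArg (Int.cast (R := ℝ)) h2
      rw [h3]
      simp only [hz]
      push_cast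
      ring
    have h2 : ∑ e, w e * (lam e : ℝ) =
        ∑ k', (∑ e, w e / Q' (j + 1) e * (x k' e : ℝ)) / sS k' := by
      simp only [hlam, Finset.mul_sum, Finset.sum_div]
      rw [Finset.sum_comm]
      refine Finset.sum_congr rfl fun k' _ => Finset.sum_congr rfl fun e _ => ?_
      have := (hs0 k').ne'
      have := (hQ0 e).ne'
      field_simp
    simp only [h1]
    rw [← h2]
    have h3 : ∀ e, w e * (2 * (m e : ℝ) - m e * nj - lam e) =
        (2 - (nj : ℝ)) * (w e * m e) - w e * lam e := fun e => by ring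
    rw [Finset.sum_congr rfl fun e _ => h3 e, Finset.sum_sub_distrib, ← Finset.mul_sum, hw]
    ring
  have hgn : ∀ b : Fin r → ℝ, ∑ l₀, (g l₀ : ℝ) * (1 + b l₀) = nj + ∑ k', b (l k') / sS k' := by
    intro b
    rw [hgs fun l₀ => 1 + b l₀, hnj, ← Finset.sum_add_distrib]
    exact Finset.sum_congr rfl fun k' _ => add_div _ _ _
  have hgpos : ∀ k', g (l k') ≠ 0 := by
    intro k' h1
    have h2 := hg (l k')
    rw [h1, Nat.cast_zero] at h2
    have h3 : 0 < ∑ k'', if l k'' = l k' then 1 / (sS k'' : ℝ) else 0 := by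
      refine Finset.sum_pos' (fun k'' _ => ?_) ⟨k', Finset.mem_univ _, ?_⟩
      · split_ifs
        · exact (one_div_pos.2 (hs0 _)).le
        · exact le_rfl
      · rw [if_pos rfl]
        exact one_div_pos.2 (hs0 _)
    linarith
  refine ⟨g, fun e => (z e).toNat, ⟨l ⟨0, by omega⟩, hgpos _⟩, fun l₀ hl₀ => ?_, ?_, ?_⟩
  · obtain ⟨k', hk'⟩ : ∃ k', l k' = l₀ := by
      by_contra hcon
      push Not at hcon
      refine hl₀ ?_
      have h1 := hg l₀
      rw [Finset.sum_eq_zero fun k' _ => if_neg (hcon k')] at h1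
      exact_mod_cast h1
    subst hk'
    exact ⟨hal k', H615.WZ.zd_of_germ h hT (hgm k') (hpar k')⟩
  · rw [hgn, hzt τ hτs]
    have h1 : ∑ k', (∑ e, τ e / Q' (j + 1) e * (x k' e : ℝ)) / sS k' =
        ∑ k', (∑ e, τ e * n e (l k') / c 0 e) / sS k' :=
      Finset.sum_congr rfl fun k' _ => by rw [heq k']
    rw [h1]
    ring
  · rw [hgn, hzt ρ h.sum]
    have h1 : ∑ k', a (l k') / (sS k' : ℝ) <
        ∑ k', (∑ e, ρ e / Q' (j + 1) e * (x k' e : ℝ)) / sS k' := by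
      refine Finset.sum_lt_sum_of_nonempty ⟨⟨0, by omega⟩, Finset.mem_univ _⟩ fun k' _ => ?_
      exact div_lt_div_of_pos_right (hlt k') (hs0 k')
    linarith

end

end Vale.Agent.P277.H615.LL
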