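import Vale.Agent.P277.H615.L.Stmt
import Vale.Agent.P277.H615.L.SingL
import Vale.Agent.P277.H371.L.Fin
import Vale.Agent.P277.H371.L.WrapL
import Vale.Agent.P277.H762.G.LexT

/-!
# P277, (LCY2): the theorem
-/

set_option maxSynthPendingDepth 3

open scoped Manifold ContDiff Topology
open Vale.Agent.P272.K Vale.Agent.P285.H281.FD Vale.Agent.P267.H175 Set Filter Metric

noncomputable section

namespace Vale.Agent.P277.H615.LL

open Vale.Agent.P277 Vale.Agent.P277.T3 H615 H371.C H29.E H884.T H29.CY H762.G H371.L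

/-- (LCY2) -/
theorem stLCY2 : T3.StLCY2 := by
  classical
  intro Y _ _ _ _ _ χ hχ k s M hM hnef m hm hm0 ρ σ hρ hσ hρσ hsum hsum' H _ _ _ _ _ _ ι sg hbd
    hdisj W X Z r v p P G hres hne f f' A L c hc n hn hflip a' a ha' ha K hK hb' hklt hd N hN
  obtain ⟨t, h4, h3, a0, a1, a2, a3, a4, b0, b1, b2⟩ := exists_t ρ σ n (c 0) (Fin.natAdd k)
    (a := fun l => toLex (∑ e, σ e * n e l / c 0 e, ∑ e, ρ e * n e l / c 0 e)) (fun l => rfl)
    (b := fun i => toLex (σ (Fin.natAdd k i), ρ (Fin.natAdd k i))) fun i => rfl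
  set τ : Fin (k + s) → ℝ := fun e => t * ρ e + (1 - t) * σ e with hτ
  have hp := tau_pos hρ hσ hρσ h4 h3 (τ := τ) fun e => rfl
  have hs := tau_sum hsum hsum' (τ := τ) (t := t) fun e => rfl
  have hfl : ∀ j, IsFlipR (X j) (Z j) (X (j + 1)) (f j) (f' j) (A j) (L j) (L (j + 1)) (c j)
      (c (j + 1)) τ := fun j => hflip j t (1 - t) h4
  obtain ⟨L', c', sσ, tt, hc', hcmp, hcorr, hcc, -, hflB, hflR⟩ :=
    wrap_coreL (ι := ι) hM hm0 hbd hres hc hn hfl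
  have h' : IsPG χ M m τ ι sg v p P G f f' A L' c' sσ n tt :=
    ⟨hχ, hM, hnef, hm, hm0, hp, hs, hbd, hdisj, hres, hne, hc', hcmp, hcorr, hflB⟩
  set d : Fin r → ℝ := fun l => ∑ e, τ e * n e l / c 0 e with hdd
  have hd' : ∀ l, d l = ∑ e, τ e * n e l / c' 0 e := by
    intro l
    simp only [hcc]
    rfl
  have hdt : ∀ l, d l = t * a l + (1 - t) * a' l := by
    intro l
    rw [ha, ha', hdd]
    simp only [hτ]
    rw [Finset.mul_sum, Finset.mul_sum, ← Finset.sum_add_distrib]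
    exact Finset.sum_congr rfl fun e _ => by ring
  have hKd : ∀ l, d l < 0 ↔ l ∈ K := by
    intro l
    rw [hK, ha', ha]
    refine (a0 l).trans ?_
    show toLex (_, _) < toLex ((0 : ℝ), (0 : ℝ)) ↔ _
    rw [Prod.Lex.toLex_lt_toLex]
  have hlt1 : ∀ i : Fin s, τ (Fin.natAdd k i) < 1 := by
    intro i
    refine (b0 i).2 ?_
    show toLex (_, _) < toLex ((1 : ℝ), (1 : ℝ))
    rw [Prod.Lex.toLex_lt_toLex]
    exact Or.inl (hb' i)
  have hklt' : ∀ l, -1 < d l := by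
    intro l
    refine (a2 l).2 ?_
    show toLex ((-1 : ℝ), (-1 : ℝ)) < toLex (_, _)
    rw [Prod.Lex.toLex_lt_toLex]
    refine Or.inl ?_
    have := hklt l
    rw [ha'] at this
    exact this
  have hsc : ∀ u : ℝ, ∀ j, IsFlipR (X j) (Z j) (X (j + 1)) (f j) (f' j) (A j) (L' j)
      (L' (j + 1)) (c' j) (c' (j + 1)) fun e => τ e + u * σ e := by
    intro u
    refine hflR _ fun j => ?_
    have h5 := hflip j t (1 - t + u) h4
    have h6 : (fun e => t * ρ e + (1 - t + u) * σ e) = fun e => τ e + u * σ e := by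
      funext e
      simp only [hτ]
      ring
    rw [h6] at h5
    exact h5
  have hd1 : ∀ l l', l ≠ l' → d l < 0 → d l' < 0 → Disjoint (G l) (G l') :=
    fun l l' hne' hl hl' => ((hd l ((hKd l).1 hl)).1 l' (Ne.symm hne')).2 ((hKd l').1 hl')
  have hd2 : ∀ l i, d l < 0 → Disjoint (G l) (range (ι i)) :=
    fun l i hl => (hd l ((hKd l).1 hl)).2 i
  have hd3 : ∀ l l', l' ≠ l → d l < 0 → ¬ G l ⊆ G l' :=
    fun l l' hne' hl => ((hd l ((hKd l).1 hl)).1 l' hne').1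
  -- the inequality for `D`
  have hlt : ∀ {B : ℝ} (g : Fin r → ℕ) (κ : Fin (k + s) → ℕ),
      ∑ l, g l * (1 + a' l) + ∑ e, σ e * κ e = B →
      ∑ l, g l * (1 + d l) + ∑ e, τ e * κ e < B → ∑ l, g l * (1 + a l) + ∑ e, ρ e * κ e < B := by
    intro B g κ k2 k3
    have e1 : ∑ l, (g l : ℝ) * (1 + d l) =
        t * ∑ l, (g l : ℝ) * (1 + a l) + (1 - t) * ∑ l, (g l : ℝ) * (1 + a' l) := by
      rw [Finset.mul_sum, Finset.mul_sum, ← Finset.sum_add_distrib]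
      exact Finset.sum_congr rfl fun l _ => by rw [hdt]; ring
    have e2 : ∑ e, τ e * (κ e : ℝ) = t * ∑ e, ρ e * (κ e : ℝ) + (1 - t) * ∑ e, σ e * (κ e : ℝ) := by
      rw [Finset.mul_sum, Finset.mul_sum, ← Finset.sum_add_distrib]
      exact Finset.sum_congr rfl fun e _ => by simp only [hτ]; ring
    rw [e1, e2] at k3
    have k6 : t * (∑ l, (g l : ℝ) * (1 + a l) + ∑ e, ρ e * (κ e : ℝ)) < t * B := by
      have k7 : (1 - t) * (∑ l, (g l : ℝ) * (1 + a' l) + ∑ e, σ e * (κ e : ℝ)) = (1 - t) * B := by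
        rw [k2]
      linarith
    exact lt_of_mul_lt_mul_left k6 h4.le
  -- the regular case
  have key : ((∀ N, ∃ j ≥ N, HasRes (X j) ∨ ¬ DimLe (X (j + 1)) 1 {x | f' j x ∈ Amin (f j)}) ∨
      ∀ j, DimLe (X (j + 1)) 1 {x | f' j x ∈ Amin (f j) ∧ ¬ IsReg 4 (X (j + 1)) x}) →
      ∃ l ∈ K, ZD (fun y => p (v y)) (hit f f') (G l) ∧ ∃ (g : ℕ) (κ : Fin (k + s) → ℕ), 1 ≤ g ∧
        g * (1 + a' l) + ∑ e, σ e * κ e = 1 ∧ g * (1 + d l) + ∑ e, τ e * κ e < 1 := by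
    intro hor
    by_contra hcon
    refine fin_no h' hd' hor hlt1 hklt' hd1 hd2 (fun l l' hne' hl => hd3 l l' (Ne.symm hne') hl)
      fun l hl hz j x hbp => hcon ⟨l, (hKd l).1 hl, hz, ?_⟩
    have hl1 : -1 < ∑ e, σ e * n e l / c' 0 e := by
      simp only [hcc]
      rw [← ha']
      exact hklt l
    obtain ⟨g, κ, k1, k2, k3⟩ := coinc h' hσ hsum' hsc hl1 j hbp
    simp only [hcc] at k2 k3
    rw [← ha'] at k2
    exact ⟨g, κ, k1, k2, k3⟩
  -- from one divisor to the sum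
  have hone : ∀ (l : Fin r) (g q : ℕ) (b : Fin r → ℝ),
      ∑ l', ((if l' = l then q * g else 0 : ℕ) : ℝ) * (1 + b l') = q * (g * (1 + b l)) := by
    intro l g q b
    rw [Finset.sum_eq_single l (fun l' _ hne' => by rw [if_neg hne']; simp)
      (fun h1 => absurd (Finset.mem_univ _) h1), if_pos rfl]
    push_cast
    ring
  have hkap : ∀ (w : Fin (k + s) → ℝ) (κ : Fin (k + s) → ℕ) (q : ℕ),
      ∑ e, w e * ((q * κ e : ℕ) : ℝ) = q * ∑ e, w e * (κ e : ℝ) := by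
    intro w κ q
    rw [Finset.mul_sum]
    exact Finset.sum_congr rfl fun e _ => by push_cast; ring
  have hfin : ∀ q : ℕ, 1 ≤ q →
      (∃ l ∈ K, ZD (fun y => p (v y)) (hit f f') (G l) ∧ ∃ (g : ℕ) (κ : Fin (k + s) → ℕ), 1 ≤ g ∧
        g * (1 + a' l) + ∑ e, σ e * κ e = 1 ∧ g * (1 + d l) + ∑ e, τ e * κ e < 1) →
      ∃ (g : Fin r → ℕ) (κ : Fin (k + s) → ℕ), (∃ l, g l ≠ 0) ∧
        (∀ l, g l ≠ 0 → l ∈ K ∧ ZD (fun y => p (v y)) (hit f f') (G l)) ∧
        ∑ l, g l * (1 + a' l) + ∑ e, σ e * κ e = q ∧ ∑ l, g l * (1 + a l) + ∑ e, ρ e * κ e < q := by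
    rintro q hq ⟨l, hl, hz, g, κ, k1, k2, k3⟩
    have hq0 : (0 : ℝ) < q := by exact_mod_cast hq
    have e1 : ∑ l', ((if l' = l then q * g else 0 : ℕ) : ℝ) * (1 + a' l') +
        ∑ e, σ e * ((q * κ e : ℕ) : ℝ) = q := by
      rw [hone, hkap, ← mul_add, k2, mul_one]
    refine ⟨fun l' => if l' = l then q * g else 0, fun e => q * κ e, ⟨l, ?_⟩, fun l' hl' => ?_, e1,
      hlt _ _ e1 ?_⟩
    · show (if l = l then q * g else 0) ≠ 0
      rw [if_pos rfl]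
      exact Nat.mul_ne_zero (by omega) (by omega)
    · by_cases h1 : l' = l
      · subst h1
        exact ⟨hl, hz⟩
      · exact absurd (if_neg h1) hl'
    · rw [hone, hkap, ← mul_add]
      calc (q : ℝ) * (g * (1 + d l) + ∑ e, τ e * (κ e : ℝ)) < q * 1 :=
            mul_lt_mul_of_pos_left k3 hq0
        _ = q := mul_one _
  rcases hN with rfl | ⟨rfl, hN⟩
  · by_cases hreg : ∀ j, DimLe (X (j + 1)) 1 {x | f' j x ∈ Amin (f j) ∧ ¬ IsReg 4 (X (j + 1)) x}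
    · exact hfin 2 (by norm_num) (key (Or.inr hreg))
    · push Not at hreg
      obtain ⟨j, hj⟩ := hreg
      obtain ⟨g, κ, k1, k2, k3, k4⟩ := sing_L h' hsum' hsc hd' hlt1 hklt' hd1 hd2 hd3 j hj
      simp only [hcc] at k3
      have e1 : ∑ l, (g l : ℝ) * (1 + a' l) + ∑ e, σ e * (κ e : ℝ) = ((2 : ℕ) : ℝ) := by
        rw [Nat.cast_ofNat, ← k3]
        simp only [← ha']
      refine ⟨g, κ, k1, fun l hl => ⟨(hKd l).1 (k2 l hl).1, (k2 l hl).2⟩, e1, hlt g κ e1 ?_⟩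
      rw [Nat.cast_ofNat]
      exact k4
  · exact hfin 1 le_rfl (key hN)

end Vale.Agent.P277.H615.LL
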